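import Vale.Agent.P287D.Tr.Bal

/-!
# P287D, block T: the linear system of the matchings, invariant centres
-/

set_option linter.unusedSectionVars false

open Finset

noncomputable section

namespace Vale.Agent.P287D.Tre

variable {E : Type*} [Field E] {v : E → ℝ} {ι : Type*} [Fintype ι] {s : ι → E} {x : E × ℝ}

/-- real valuations; the value at zero plays no role -/
structure Vl (v : E → ℝ) : Prop extends Um v where
  mul : ∀ x y, x ≠ 0 → y ≠ 0 → v (x * y) = v x + v y

theorem Vl.one (h : Vl v) : v 1 = 0 := by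
  have := h.mul 1 1 one_ne_zero one_ne_zero
  rw [mul_one] at this
  linarith

theorem Vl.prod (h : Vl v) {α : Type*} (T : Finset α) {f : α → E} (hf : ∀ a ∈ T, f a ≠ 0) :
    v (∏ a ∈ T, f a) = ∑ a ∈ T, v (f a) := by
  classical
  induction T using Finset.induction_on with
  | empty => simpa using h.one
  | insert a T n ih =>
    have k := fun b hb => hf b (mem_insert_of_mem hb)
    rw [prod_insert n, sum_insert n, h.mul _ _ (hf a (mem_insert_self _ _)) (prod_ne_zero_iff.2 k),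
      ih k]

theorem Vl.pow (h : Vl v) {a : E} {n : ℕ} (ha : n ≠ 0 → a ≠ 0) : v (a ^ n) = n * v a := by
  rcases eq_or_ne n 0 with rfl | q
  · simpa using h.one
  · simpa using h.prod (range n) fun _ _ => ha q

theorem Vl.comp {E' : Type*} [Field E'] (h : Vl v) (γ : E' →+* E) : Vl fun a => v (γ a) where
  neg a := by rw [map_neg, h.neg]
  add a b p q r := by
    rw [map_add]
    exact h.add _ _ ((map_ne_zero γ).2 p) ((map_ne_zero γ).2 q)
      (by rw [← map_add]; exact (map_ne_zero γ).2 r)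
  mul a b p q := by rw [map_mul, h.mul _ _ ((map_ne_zero γ).2 p) ((map_ne_zero γ).2 q)]

theorem Vl.div (h : Vl v) {c : ℝ} (hc : 0 < c) : Vl fun a => v a / c where
  neg a := by rw [h.neg]
  add a b p q r := by
    rw [min_div_div_right hc.le]
    exact div_le_div_of_nonneg_right (h.add a b p q r) hc.le
  mul a b p q := by rw [h.mul a b p q, add_div]

theorem rho_comp {E' : Type*} [Field E'] (v : E → ℝ) (γ : E' →+* E) (x : E' × ℝ) (a : E') :
    rho (fun a => v (γ a)) x a = rho v (γ x.1, x.2) (γ a) := by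
  by_cases p : a = x.1
  · rw [p, rho_self]
    exact (rho_self v (γ x.1, x.2)).symm
  · rw [rho_ne p, rho_ne (x := (γ x.1, x.2)) (γ.injective.ne p), map_sub]

theorem rho_div (v : E → ℝ) {c : ℝ} (hc : 0 < c) (x : E × ℝ) (a : E) :
    rho (fun a => v a / c) (x.1, x.2 / c) a = rho v x a / c := by
  by_cases p : a = x.1
  · rw [p, rho_self v x]
    exact rho_self _ (x.1, x.2 / c)
  · rw [rho_ne p, rho_ne (x := (x.1, x.2 / c)) p, min_div_div_right hc.le]

theorem psi_div (v : E → ℝ) {c : ℝ} (hc : 0 < c) (s : ι → E) (m : ι → ℝ) (x : E × ℝ) :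
    psi (fun a => v a / c) s m (x.1, x.2 / c) = psi v s m x / c := by
  simp only [psi, rho_div v hc, sub_div, sum_div, mul_div_assoc]

/-- the order function of an invariant form at conjugate valuations -/
theorem psi_comp (v : E → ℝ) (γ : E →+* E) {m : ι → ℝ} (π : ι ≃ ι) (hπ : ∀ i, s (π i) = γ (s i))
    (hw : ∀ i, m (π i) = m i) (x : E × ℝ) :
    psi (fun a => v (γ a)) s m x = psi v s m (γ x.1, x.2) := by
  simp only [psi, rho_comp, ← hπ]
  rw [← Equiv.sum_comp π fun i => m i * rho v (γ x.1, x.2) (s i)]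
  simp only [hw]

theorem exists_den {α : Type*} [Finite α] (q : α → ℚ) (h : ∀ a, 0 ≤ q a) :
    ∃ N : ℕ, 0 < N ∧ ∀ a, ∃ n : ℕ, (n : ℚ) = N * q a := by
  classical
  have := Fintype.ofFinite α
  refine ⟨∏ a, (q a).den, prod_pos fun a _ => (q a).pos, fun a => ?_⟩
  obtain ⟨d, hd⟩ : (q a).den ∣ ∏ a, (q a).den := dvd_prod_of_mem _ (mem_univ a)
  obtain ⟨n, hn⟩ := Int.eq_ofNat_of_zero_le (Rat.num_nonneg.2 (h a))
  refine ⟨d * n, ?_⟩
  rw [hd, Nat.cast_mul, Nat.cast_mul, mul_right_comm, Rat.den_mul_eq_num, hn, mul_comm]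
  rfl

/-- the linear system of the matchings computes the minimum of `psi` at every valuation -/
theorem exists_sys (hs : Function.Injective s) {m : ι → ℚ} (h0 : ∀ i, 0 ≤ m i)
    (h1 : ∀ i, m i ≤ 1) (hm : ∑ i, m i = 2) : ∃ (N : ℕ) (T : Finset E), 0 < N ∧ 0 ∉ T ∧
      ∀ v, Vl v → (∀ p ∈ T, ∀ x, 0 ≤ v p / N + psi v s (fun i => m i) x) ∧
        ∀ x, Bal v s m x → ∃ p ∈ T, v p / N + psi v s (fun i => m i) x = 0 := by
  classical
  have hm' : ∑ i, (m i : ℝ) = 2 := by exact_mod_cast hm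
  let G := {S : Set (ι × ι) // ∃ A, Fm s m A ∧ ∀ i j, A i j ≠ 0 → (i, j) ∈ S}
  let A : G → ι → ι → ℚ := fun S => S.2.choose
  have hA : ∀ S : G, Fm s m (A S) ∧ ∀ i j, A S i j ≠ 0 → (i, j) ∈ S.1 := fun S => S.2.choose_spec
  obtain ⟨N, N0, hN⟩ := exists_den (fun q : G × ι × ι => A q.1 q.2.1 q.2.2)
    fun q => (hA q.1).1.nn _ _
  choose n hn using hN
  have nz : ∀ S i j, n (S, i, j) ≠ 0 → s i - s j ≠ 0 := fun S i j q e => q (by
    have := hn (S, i, j)
    rw [(hA S).1.diag i j (sub_eq_zero.1 e), mul_zero] at this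
    exact_mod_cast this)
  have pz : ∀ S i j, (s i - s j) ^ n (S, i, j) ≠ 0 := fun S i j => by
    rcases eq_or_ne (n (S, i, j)) 0 with q | q
    · simp [q]
    · exact pow_ne_zero _ (nz S i j q)
  let p : G → E := fun S => ∏ i, ∏ j, (s i - s j) ^ n (S, i, j)
  have := Fintype.ofFinite G
  have vp : ∀ v, Vl v → ∀ S, v (p S) / (2 * N : ℕ) = vm v s fun i j => A S i j := fun v h S => by
    have e : ∀ i j, (n (S, i, j) : ℝ) = N * A S i j := fun i j => by exact_mod_cast hn (S, i, j)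
    have : (N : ℝ) ≠ 0 := by exact_mod_cast N0.ne'
    rw [h.prod _ fun i _ => prod_ne_zero_iff.2 fun j _ => pz S i j,
      sum_congr rfl fun i _ => h.prod _ fun j _ => pz S i j]
    simp only [fun i j => h.pow (nz S i j), e, mul_assoc, ← mul_sum, vm]
    push_cast
    field_simp
  refine ⟨2 * N, univ.image p, by omega, fun q => ?_, fun v h => ⟨fun q hq x => ?_, fun x b => ?_⟩⟩
  · obtain ⟨S, -, e⟩ := mem_image.1 q
    exact prod_ne_zero_iff.2 (fun i _ => prod_ne_zero_iff.2 fun j _ => pz S i j) e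
  · obtain ⟨S, -, rfl⟩ := mem_image.1 hq
    rw [vp v h]
    exact (hA S).1.cast.nonneg hm' h.toUm x
  · let S : G := ⟨{q | dd v x (s q.1) (s q.2) = 0}, b.exists_fm h.toUm hs h0 h1 hm⟩
    refine ⟨p S, mem_image_of_mem _ (mem_univ _), ?_⟩
    rw [vp v h]
    exact (hA S).1.cast.eq_zero hm' fun i j q => (hA S).2 i j (by exact_mod_cast q)

/-- the elements of order at least `r` -/
def Um.ball {E : Type*} [AddCommGroup E] {v : E → ℝ} (h : Um v) (r : ℝ) : AddSubgroup E where
  carrier := {a | a = 0 ∨ r ≤ v a}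
  zero_mem' := .inl rfl
  add_mem' := fun {a b} ha hb => by
    by_cases p : a = 0
    · simpa [p] using hb
    by_cases q : b = 0
    · simpa [q] using ha
    exact or_iff_not_imp_left.2 fun e =>
      (le_min (ha.resolve_left p) (hb.resolve_left q)).trans (h.add a b p q e)
  neg_mem' := fun {a} ha => ha.imp neg_eq_zero.2 fun q => by rwa [h.neg]

theorem Vl.mul_ball (h : Vl v) {r t : ℝ} {a b : E} (ha : a ∈ h.toUm.ball r)
    (hb : b ∈ h.toUm.ball t) : a * b ∈ h.toUm.ball (r + t) := by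
  by_cases p : a = 0
  · exact .inl (by simp [p])
  by_cases q : b = 0
  · exact .inl (by simp [q])
  exact .inr (h.mul a b p q ▸ add_le_add (ha.resolve_left p) (hb.resolve_left q))

/-- **T4**: a disc fixed by the decomposition group has an invariant centre -/
theorem Vl.centre [CharZero E] (h : Vl v) (hn : ∀ n : ℕ, n ≠ 0 → v n = 0) {G : Type*} [Group G]
    [Fintype G] [MulSemiringAction G E]
    (ap : ∀ N : ℝ, ∃ u, u - 1 ∈ h.toUm.ball N ∧
      ∀ γ : G, ¬ (∀ a, v (γ • a) = v a) → γ • u ∈ h.toUm.ball N)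
    (hx : ∀ γ : G, (∀ a, v (γ • a) = v a) → rho v x (γ • x.1) = x.2) :
    ∃ c, (∀ γ : G, γ • c = c) ∧ rho v x c = x.2 := by
  classical
  obtain ⟨M, hM⟩ := (Set.finite_range fun γ : G => v (γ • x.1)).bddBelow
  obtain ⟨u, u1, u2⟩ := ap (x.2 - M)
  have c0 : ∀ γ : G, γ • x.1 ∈ h.toUm.ball M := fun γ => .inr (hM ⟨γ, rfl⟩)
  let D : Finset G := univ.filter fun γ => ∀ a, v (γ • a) = v a
  have D0 : D.card ≠ 0 := card_ne_zero.2 ⟨1, by simp [D]⟩
  have D1 : (D.card : E) ≠ 0 := by exact_mod_cast D0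
  refine ⟨(D.card : E)⁻¹ * ∑ γ : G, γ • (u * x.1), fun δ => ?_, rho_top.2 ?_⟩
  · rw [smul_mul', smul_inv'', smul_sum]
    have := Equiv.sum_comp (Equiv.mulLeft δ) fun γ : G => γ • (u * x.1)
    simp only [Equiv.coe_mulLeft, mul_smul] at this
    rw [this]
    exact congrArg (fun a => a⁻¹ * _) (map_natCast (MulSemiringAction.toRingHom G E δ) _)
  have k : ∑ γ : G, γ • (u * x.1) - D.card * x.1 ∈ h.toUm.ball x.2 := by
    rw [← nsmul_eq_mul, ← sum_const, sum_filter, ← sum_sub_distrib]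
    refine sum_mem fun γ _ => ?_
    split_ifs with q
    · have e : γ • (u * x.1) - x.1 = γ • (u - 1) * γ • x.1 + (γ • x.1 - x.1) := by
        rw [smul_sub, smul_mul', smul_one]
        ring
      rw [e]
      refine add_mem ?_ ((rho_top.1 (hx γ q)).imp sub_eq_zero.2 id)
      have : γ • (u - 1) ∈ h.toUm.ball (x.2 - M) :=
        u1.imp (fun z => by rw [z, smul_zero]) fun z => by rwa [q]
      simpa using h.mul_ball this (c0 γ)
    · rw [sub_zero, smul_mul']
      simpa using h.mul_ball (u2 γ q) (c0 γ)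
  have i : (D.card : E)⁻¹ ∈ h.toUm.ball 0 := .inr (by
    have := h.mul _ _ D1 (inv_ne_zero D1)
    rw [mul_inv_cancel₀ D1, h.one, hn _ D0] at this
    linarith)
  have := h.mul_ball i k
  rw [zero_add, mul_sub, inv_mul_cancel_left₀ D1] at this
  exact this.imp sub_eq_zero.1 id

end Vale.Agent.P287D.Tre
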