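import Vale.Agent.P287D.Tr.Mat

/-!
# P287D, block T: the balanced disc
-/

set_option linter.unusedSectionVars false

open Finset

noncomputable section

namespace Vale.Agent.P287D.Tre

variable {k : Type*} [Field k] [LinearOrder k] [IsStrictOrderedRing k]
  {E : Type*} [AddCommGroup E] {v : E → ℝ} {ι : Type*} [Fintype ι] {s : ι → E} {m : ι → k}
  {x y : E × ℝ}

open Classical in
/-- the mass of a disc -/
def dm (v : E → ℝ) (s : ι → E) (m : ι → k) (x : E × ℝ) : k := ∑ i with rho v x (s i) = x.2, m i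

/-- the smallest disc with more than half of the mass -/
def Bal (v : E → ℝ) (s : ι → E) (m : ι → k) (x : E × ℝ) : Prop :=
  1 < dm v s m x ∧ ∀ y, 1 < dm v s m y → y.2 ≤ x.2

theorem rho_top {a : E} : rho v x a = x.2 ↔ a = x.1 ∨ x.2 ≤ v (a - x.1) := by
  by_cases p : a = x.1
  · simp [p, rho_self]
  · simp [p, rho_ne p]

open Classical in
theorem le_dm (h0 : ∀ i, 0 ≤ m i) {T : Finset ι} (h : ∀ i ∈ T, rho v x (s i) = x.2) :
    ∑ i ∈ T, m i ≤ dm v s m x :=
  sum_le_sum_of_subset_of_nonneg (fun i hi => mem_filter.2 ⟨mem_univ _, h i hi⟩) fun i _ _ => h0 i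

theorem two_pts (h0 : ∀ i, 0 ≤ m i) (h1 : ∀ i, m i ≤ 1) {T : Finset ι} (h : 1 < ∑ i ∈ T, m i)
    (i : ι) : ∃ j ∈ T, j ≠ i := by
  by_contra c
  simp only [not_exists, not_and, not_not] at c
  have : ∑ j ∈ T, m j ≤ ∑ j ∈ {i}, m j :=
    sum_le_sum_of_subset_of_nonneg (fun j hj => mem_singleton.2 (c j hj)) fun j _ _ => h0 j
  rw [sum_singleton] at this
  exact absurd (h.trans_le (this.trans (h1 i))) (lt_irrefl _)

/-- a heavy set lies in a heavy disc with a given centre and the radius of a pair -/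
theorem heavy (h0 : ∀ i, 0 ≤ m i) (h1 : ∀ i, m i ≤ 1) {T : Finset ι} (h : 1 < ∑ i ∈ T, m i)
    (i : ι) : ∃ j ∈ T, j ≠ i ∧ 1 < dm v s m (s i, v (s j - s i)) := by
  classical
  obtain ⟨j, hj, n⟩ := two_pts h0 h1 h i
  obtain ⟨l, hl, q⟩ := exists_min_image (T.erase i) (fun j => v (s j - s i))
    ⟨j, mem_erase.2 ⟨n, hj⟩⟩
  refine ⟨l, (mem_erase.1 hl).2, (mem_erase.1 hl).1, h.trans_le (le_dm h0 fun t ht => ?_)⟩
  by_cases e : t = i
  · exact rho_top.2 (.inl (e ▸ rfl))
  · exact rho_top.2 (.inr (q t (mem_erase.2 ⟨e, ht⟩)))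

theorem Um.exists_bal (h : Um v) (hs : Function.Injective s) (h0 : ∀ i, 0 ≤ m i)
    (h1 : ∀ i, m i ≤ 1) (hm : ∑ i, m i = 2) : ∃ i r, Bal v s m (s i, r) := by
  classical
  have t : 1 < ∑ i, m i := by
    rw [hm]
    exact one_lt_two
  obtain ⟨i₀, -⟩ := nonempty_of_sum_ne_zero (zero_lt_one.trans t).ne'
  obtain ⟨j₀, -, n₀, p₀⟩ := heavy (v := v) (s := s) h0 h1 t i₀
  obtain ⟨q, hq, mx⟩ := exists_max_image
    (univ.filter fun q : ι × ι => 1 < dm v s m (s q.1, v (s q.2 - s q.1)))
    (fun q => v (s q.2 - s q.1)) ⟨(i₀, j₀), mem_filter.2 ⟨mem_univ _, p₀⟩⟩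
  refine ⟨q.1, _, (mem_filter.1 hq).2, fun y hy => ?_⟩
  obtain ⟨i, hi⟩ := nonempty_of_sum_ne_zero (zero_lt_one.trans hy).ne'
  obtain ⟨j, hj, n, p⟩ := heavy (v := v) (s := s) h0 h1 hy i
  refine le_trans ?_ (mx (i, j) (mem_filter.2 ⟨mem_univ _, p⟩))
  have := h.rho_v y (hs.ne n)
  rwa [(mem_filter.1 hi).2, (mem_filter.1 hj).2, min_self] at this

/-- two heavy discs have a common point -/
theorem meet (h0 : ∀ i, 0 ≤ m i) (hm : ∑ i, m i = 2) (hx : 1 < dm v s m x)
    (hy : 1 < dm v s m y) : ∃ i, rho v x (s i) = x.2 ∧ rho v y (s i) = y.2 := by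
  classical
  by_contra c
  simp only [not_exists, not_and] at c
  have d : Disjoint (univ.filter fun i => rho v x (s i) = x.2)
      (univ.filter fun i => rho v y (s i) = y.2) :=
    disjoint_filter.2 fun i _ => c i
  have := sum_le_sum_of_subset_of_nonneg (f := m) (subset_univ (disjUnion _ _ d)) fun i _ _ => h0 i
  rw [sum_disjUnion, hm] at this
  have e : dm v s m x + dm v s m y ≤ 2 := this
  linarith

theorem Bal.uniq (b : Bal v s m x) (h : Um v) (h0 : ∀ i, 0 ≤ m i) (hm : ∑ i, m i = 2) {c : E}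
    (hc : 1 < dm v s m (c, x.2)) : rho v x c = x.2 := by
  obtain ⟨i, p, q⟩ := meet h0 hm b.1 hc
  have := h.min_le_jn x (c, x.2) (s i)
  rw [p, q, min_self] at this
  exact le_antisymm (rho_le _ _ _) (this.trans (min_le_left _ _))

/-- the balanced disc is fixed by the symmetries -/
theorem Bal.fix (b : Bal v s m x) (h : Um v) (h0 : ∀ i, 0 ≤ m i) (hm : ∑ i, m i = 2)
    {γ : E → E} (hγ : Function.Injective γ) (hv : ∀ a c, a ≠ c → v (γ a - γ c) = v (a - c))
    (π : ι ≃ ι) (hπ : ∀ i, s (π i) = γ (s i)) (hw : ∀ i, m (π i) = m i) :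
    rho v x (γ x.1) = x.2 := by
  classical
  refine b.uniq h h0 hm (b.1.trans_le (le_of_eq ?_))
  refine sum_equiv π (fun i => ?_) fun i _ => (hw i).symm
  simp only [mem_filter, mem_univ, true_and, hπ]
  rw [rho_top, rho_top (x := (γ x.1, x.2)), hγ.eq_iff]
  by_cases e : s i = x.1
  · simp [e]
  · simp [e, hv _ _ e]

/-- at the balanced disc some matching has order zero -/
theorem Bal.exists_fm (b : Bal v s m x) (h : Um v) (hs : Function.Injective s)
    (h0 : ∀ i, 0 ≤ m i) (h1 : ∀ i, m i ≤ 1) (hm : ∑ i, m i = 2) :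
    ∃ A, Fm s m A ∧ ∀ i j, A i j ≠ 0 → dd v x (s i) (s j) = 0 := by
  classical
  let R : ι → ι → Prop := fun i j => s i = s j ∨ x.2 < v (s i - s j)
  have Rs : ∀ i j, R i j → R j i := fun i j r => r.imp Eq.symm fun q => by rwa [h.sub_comm]
  have Rt : ∀ i j l, R i j → R j l → R i l := by
    intro i j l p q
    by_cases e : s i = s l
    · exact .inl e
    rcases p with p | p
    · simpa only [R, p] using q
    rcases q with q | q
    · simpa only [R, ← q] using .inr p
    by_cases e1 : s i = s j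
    · simpa only [R, e1] using .inr q
    by_cases e2 : s j = s l
    · simpa only [R, ← e2] using .inr p
    exact .inr ((lt_min p q).trans_le (h.tri e1 e2 e))
  let κ : ι → Option (Set ι) := fun i => if rho v x (s i) = x.2 then some {j | R i j} else none
  obtain ⟨A, f⟩ := Tre.exists_fm κ m h0 fun i => by
    rw [hm, mul_comm, ← le_div_iff₀ two_pos, div_self two_ne_zero]
    by_cases p : rho v x (s i) = x.2
    · by_contra c
      obtain ⟨j, hj, n, q⟩ := heavy (v := v) (s := s) h0 h1 (not_le.1 c) i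
      have e := ((@mem_filter _ _ (_) _ _).1 hj).2
      simp only [κ, if_pos p] at e
      split_ifs at e
      have r : R j i := (Option.some.inj e).ge (show R i i from .inl rfl)
      exact (r.resolve_left (hs.ne n)).not_ge (b.2 _ q)
    · have := sum_filter_add_sum_filter_not univ (fun j => rho v x (s j) = x.2) m
      have e : mass κ m (κ i) = ∑ j with ¬ rho v x (s j) = x.2, m j :=
        sum_congr (Finset.ext fun j => by simp [κ, p]) fun _ _ => rfl
      have g : 1 < ∑ j with rho v x (s j) = x.2, m j := b.1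
      rw [e]
      linarith
  refine ⟨A, f.mono fun i j e => ?_, fun i j n => ?_⟩
  · simp only [κ, R, e]
  have nk : κ i ≠ κ j := fun e => n (f.diag i j e)
  have ns : s i ≠ s j := fun e => nk (by simp only [κ, R, e])
  have a1 := min_le_iff.1 (h.v_rho x ns)
  have a2 := min_le_iff.1 (h.v_rho x ns.symm)
  have a3 := h.dd_nonneg x ns
  have a4 := rho_le v x (s i)
  have a5 := rho_le v x (s j)
  rw [h.sub_comm] at a2
  refine le_antisymm ?_ a3
  unfold dd
  by_cases p : rho v x (s i) = x.2 <;> by_cases q : rho v x (s j) = x.2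
  · have : ¬ R i j := fun r => nk (by
      simp only [κ, if_pos p, if_pos q]
      exact congrArg some (Set.ext fun l => ⟨Rt _ _ _ (Rs _ _ r), Rt _ _ _ r⟩))
    have := not_lt.1 (not_or.1 this).2
    linarith
  · rcases a1 with a | a
    · exact absurd (le_antisymm a5 (p ▸ a)) q
    · linarith
  · rcases a2 with a | a
    · exact absurd (le_antisymm a4 (q ▸ a)) p
    · linarith
  · exact absurd (by simp only [κ, if_neg p, if_neg q]) nk

theorem Fm.eq_zero {m : ι → ℝ} {A : ι → ι → ℝ} (f : Fm s m A) (hm : ∑ i, m i = 2)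
    (h : ∀ i j, A i j ≠ 0 → dd v x (s i) (s j) = 0) : vm v s A + psi v s m x = 0 := by
  rw [f.eq hm, sum_eq_zero fun i _ => sum_eq_zero fun j _ => ?_, zero_div]
  by_cases e : A i j = 0
  · rw [e, zero_mul]
  · rw [h i j e, mul_zero]

/-- a disc which contains `c` is near to an integral disc with the centre `c` -/
theorem ds_round {c : E} (hc : rho v x c = x.2) :
    ds v x (c, (round x.2 : ℤ)) ≤ 1 / 2 := by
  have : jn v x (c, (round x.2 : ℤ)) = min x.2 (round x.2 : ℤ) := by rw [jn, hc]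
  have t := abs_le.1 (abs_sub_round x.2)
  rw [ds, this]
  rcases le_total x.2 (round x.2 : ℤ) with p | p
  · rw [min_eq_left p]
    linarith [t.1]
  · rw [min_eq_right p]
    linarith [t.2]

end Vale.Agent.P287D.Tre
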