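import Mathlib

/-!
# P287D, block T: discs of an ultrametric group
-/

open Finset

noncomputable section

namespace Vale.Agent.P287D.Tre

variable {E : Type*} [AddCommGroup E] {v : E → ℝ} {x y : E × ℝ} {a b : E}

/-- an ultrametric order function; the value at zero plays no role -/
structure Um (v : E → ℝ) : Prop where
  neg : ∀ x, v (-x) = v x
  add : ∀ x y, x ≠ 0 → y ≠ 0 → x + y ≠ 0 → min (v x) (v y) ≤ v (x + y)

open Classical in
/-- the order of `w - a` at the disc `x` = (centre, radius) -/
def rho (v : E → ℝ) (x : E × ℝ) (a : E) : ℝ := if a = x.1 then x.2 else min x.2 (v (a - x.1))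

/-- the height of the smallest disc which contains two discs -/
def jn (v : E → ℝ) (x y : E × ℝ) : ℝ := min (rho v x y.1) y.2

/-- the distance of two discs -/
def ds (v : E → ℝ) (x y : E × ℝ) : ℝ := x.2 + y.2 - 2 * jn v x y

/-- the distance of a disc from the geodesic of two different points -/
def dd (v : E → ℝ) (x : E × ℝ) (a b : E) : ℝ := v (a - b) + x.2 - rho v x a - rho v x b

theorem Um.sub_comm (h : Um v) (a b : E) : v (a - b) = v (b - a) := by rw [← h.neg, neg_sub]

theorem Um.tri (h : Um v) {a b c : E} (h1 : a ≠ b) (h2 : b ≠ c) (h3 : a ≠ c) :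
    min (v (a - b)) (v (b - c)) ≤ v (a - c) := by
  have := h.add (a - b) (b - c) (sub_ne_zero.2 h1) (sub_ne_zero.2 h2)
    (by rw [sub_add_sub_cancel]; exact sub_ne_zero.2 h3)
  rwa [sub_add_sub_cancel] at this

theorem rho_le (v : E → ℝ) (x : E × ℝ) (a : E) : rho v x a ≤ x.2 := by
  unfold rho
  split_ifs
  exacts [le_rfl, min_le_left _ _]

theorem rho_self (v : E → ℝ) (x : E × ℝ) : rho v x x.1 = x.2 := if_pos rfl

theorem rho_ne (h : a ≠ x.1) : rho v x a = min x.2 (v (a - x.1)) := if_neg h

theorem Um.rho_v (h : Um v) (x : E × ℝ) (n : a ≠ b) :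
    min (rho v x a) (rho v x b) ≤ v (a - b) := by
  by_cases p : a = x.1
  · subst p
    rw [rho_ne n.symm, h.sub_comm x.1]
    exact (min_le_right _ _).trans (min_le_right _ _)
  by_cases q : b = x.1
  · subst q
    rw [rho_ne n]
    exact (min_le_left _ _).trans (min_le_right _ _)
  rw [rho_ne p, rho_ne q, h.sub_comm b]
  exact (min_le_min (min_le_right _ _) (min_le_right _ _)).trans (h.tri p (Ne.symm q) n)

theorem Um.v_rho (h : Um v) (x : E × ℝ) (n : a ≠ b) :
    min (rho v x a) (v (a - b)) ≤ rho v x b := by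
  by_cases q : b = x.1
  · rw [q, rho_self]
    exact (min_le_left _ _).trans (rho_le _ _ _)
  rw [rho_ne q]
  refine le_min ((min_le_left _ _).trans (rho_le _ _ _)) ?_
  by_cases p : a = x.1
  · rw [p, h.sub_comm b]
    exact min_le_right _ _
  rw [rho_ne p, h.sub_comm a b, min_comm]
  exact (min_le_min le_rfl (min_le_right _ _)).trans (h.tri n.symm p q)

/-- a function with the two ultrametric inequalities and a maximum is a disc -/
theorem rho_of {ρ : E → ℝ} {c : E} (h0 : ∀ a, ρ a ≤ ρ c)
    (h1 : ∀ a b, a ≠ b → min (ρ a) (ρ b) ≤ v (a - b))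
    (h2 : ∀ a b, a ≠ b → min (ρ a) (v (b - a)) ≤ ρ b) (a : E) : ρ a = rho v (c, ρ c) a := by
  by_cases p : a = c
  · rw [p]
    exact (rho_self v (c, ρ c)).symm
  rw [rho_ne (x := (c, ρ c)) p]
  refine le_antisymm (le_min (h0 a) ?_) (h2 c a (Ne.symm p))
  have := h1 a c p
  rwa [min_eq_left (h0 a)] at this

theorem Um.dd_nonneg (h : Um v) (x : E × ℝ) (n : a ≠ b) : 0 ≤ dd v x a b := by
  have := h.rho_v x n
  have := rho_le v x a
  have := rho_le v x b
  unfold dd
  rcases min_le_iff.1 ‹min _ _ ≤ _› with p | p <;> linarith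

theorem Um.dd_comm (h : Um v) (x : E × ℝ) (a b : E) : dd v x a b = dd v x b a := by
  rw [dd, dd, h.sub_comm a]
  ring

theorem Um.jn_comm (h : Um v) (x y : E × ℝ) : jn v x y = jn v y x := by
  unfold jn
  by_cases p : y.1 = x.1
  · rw [p, rho_self, ← p, rho_self, min_comm]
  rw [rho_ne p, rho_ne (Ne.symm p), h.sub_comm y.1, min_comm, min_comm y.2 (v _), min_comm x.2,
    min_left_comm, min_assoc]

theorem Um.ds_comm (h : Um v) (x y : E × ℝ) : ds v x y = ds v y x := by
  rw [ds, ds, h.jn_comm, add_comm]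

theorem jn_le_left (v : E → ℝ) (x y : E × ℝ) : jn v x y ≤ x.2 :=
  (min_le_left _ _).trans (rho_le _ _ _)

theorem jn_le_right (v : E → ℝ) (x y : E × ℝ) : jn v x y ≤ y.2 := min_le_right _ _

theorem ds_nonneg (v : E → ℝ) (x y : E × ℝ) : 0 ≤ ds v x y := by
  have := jn_le_left v x y
  have := jn_le_right v x y
  unfold ds
  linarith

theorem Um.min_le_jn (h : Um v) (x y : E × ℝ) (a : E) :
    min (rho v x a) (rho v y a) ≤ jn v x y := by
  refine le_min ?_ ((min_le_right _ _).trans (rho_le _ _ _))
  by_cases p : a = y.1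
  · rw [p]
    exact min_le_left _ _
  refine le_trans (min_le_min le_rfl ?_) (h.v_rho x p)
  rw [rho_ne p]
  exact min_le_right _ _

theorem Um.min_jn_le (h : Um v) (x y : E × ℝ) (a : E) :
    min (rho v x a) (jn v x y) ≤ rho v y a := by
  by_cases p : a = y.1
  · rw [p, rho_self]
    exact (min_le_right _ _).trans (jn_le_right _ _ _)
  rw [rho_ne (x := y) p]
  exact le_min ((min_le_right _ _).trans (jn_le_right _ _ _))
    ((min_le_min le_rfl (min_le_left _ _)).trans (h.rho_v x p))

/-- the three positions of a point relative to two discs -/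
theorem Um.pos (h : Um v) (x y : E × ℝ) (a : E) :
    (jn v x y ≤ rho v x a ∧ rho v y a = jn v x y) ∨ (jn v x y ≤ rho v y a ∧ rho v x a = jn v x y) ∨
      (rho v x a ≤ jn v x y ∧ rho v y a = rho v x a) := by
  have p := min_le_iff.1 (h.min_le_jn x y a)
  have q := min_le_iff.1 (h.min_jn_le x y a)
  have r := min_le_iff.1 (h.min_jn_le y x a)
  rw [h.jn_comm y x] at r
  by_contra c
  simp only [not_or, not_and] at c
  obtain ⟨c1, c2, c3⟩ := c
  rcases p with p | p <;> rcases q with q | q <;> rcases r with r | r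
  all_goals first
    | exact c3 (by linarith) (by linarith)
    | exact c2 (by linarith) (by linarith)
    | exact c1 (by linarith) (by linarith)

theorem Um.lip1 (h : Um v) (x y : E × ℝ) (a : E) : |rho v x a - rho v y a| ≤ ds v x y := by
  have := rho_le v x a
  have := rho_le v y a
  have := jn_le_left v x y
  have := jn_le_right v x y
  rw [abs_le, ds]
  rcases h.pos x y a with p | p | p <;> constructor <;> linarith [p.1, p.2]

theorem Um.lip2 (h : Um v) (x y : E × ℝ) (a b : E) :
    |rho v x a - rho v x b - (rho v y a - rho v y b)| ≤ ds v x y := by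
  have := rho_le v x a
  have := rho_le v y a
  have := rho_le v x b
  have := rho_le v y b
  have := jn_le_left v x y
  have := jn_le_right v x y
  rw [abs_le, ds]
  rcases h.pos x y a with p | p | p <;> rcases h.pos x y b with q | q | q <;> constructor <;>
    linarith [p.1, p.2, q.1, q.2]

theorem Um.bus (h : Um v) (x y : E × ℝ) (a : E) :
    |x.2 - 2 * rho v x a - (y.2 - 2 * rho v y a)| ≤ ds v x y := by
  have := rho_le v x a
  have := rho_le v y a
  have := jn_le_left v x y
  have := jn_le_right v x y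
  rw [abs_le, ds]
  rcases h.pos x y a with p | p | p <;> constructor <;> linarith [p.1, p.2]

theorem ds_same (v : E → ℝ) (c : E) (r t : ℝ) : ds v (c, r) (c, t) = |r - t| := by
  have : jn v (c, r) (c, t) = min r t := by rw [jn, rho_self v (c, r)]
  rw [ds, this]
  rcases le_total r t with p | p
  · rw [min_eq_left p, abs_of_nonpos (by linarith)]
    ring
  · rw [min_eq_right p, abs_of_nonneg (by linarith)]
    ring

/-- a disc does not depend on the choice of its centre -/
theorem Um.rho_congr (h : Um v) (x : E × ℝ) {c : E} (hc : rho v x c = x.2) (a : E) :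
    rho v (c, x.2) a = rho v x a := by
  have j : jn v x (c, x.2) = x.2 := by rw [jn, hc, min_self]
  have := rho_le v x a
  have := rho_le v (c, x.2) a
  rcases h.pos x (c, x.2) a with p | p | p <;> rw [j] at p <;> linarith [p.1, p.2]

/-- the projection of a point to the segment from `x` to `y` -/
def pj (v : E → ℝ) (x y : E × ℝ) (a : E) : ℝ := x.2 - jn v x y - rho v x a + rho v y a

theorem Um.pj_mem (h : Um v) (x y : E × ℝ) (a : E) : 0 ≤ pj v x y a ∧ pj v x y a ≤ ds v x y := by
  have := abs_le.1 (h.bus x y a)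
  unfold pj
  unfold ds at *
  constructor <;> linarith [this.1, this.2]

theorem Um.pj_le (h : Um v) (x y : E × ℝ) (n : a ≠ b) :
    min (pj v x y a) (pj v x y b) ≤ dd v x a b := by
  have s := min_le_iff.1 (h.rho_v x n)
  have t := min_le_iff.1 (h.rho_v y n)
  rw [min_le_iff, pj, pj, dd]
  by_contra c
  simp only [not_or, not_le] at c
  rcases h.pos x y a with p | p | p <;> rcases h.pos x y b with q | q | q <;>
    rcases s with s | s <;> rcases t with t | t <;> linarith [p.1, p.2, q.1, q.2, c.1, c.2]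

section weights

variable {ι : Type*} [Fintype ι] {s : ι → E} {m : ι → ℝ} {A : ι → ι → ℝ}

/-- the order function of the form `dw / ∏ (w - s i) ^ m i` -/
def psi (v : E → ℝ) (s : ι → E) (m : ι → ℝ) (x : E × ℝ) : ℝ := x.2 - ∑ i, m i * rho v x (s i)

/-- the order of `∏ (s i - s j) ^ (A i j / 2)` -/
def vm (v : E → ℝ) (s : ι → E) (A : ι → ι → ℝ) : ℝ := (∑ i, ∑ j, A i j * v (s i - s j)) / 2

/-- fractional matchings of the points `s` with the weights `m` -/
structure Fm {k : Type*} [Field k] [LinearOrder k] {D : Type*} (s : ι → D) (m : ι → k)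
    (A : ι → ι → k) : Prop where
  nn : ∀ i j, 0 ≤ A i j
  symm : ∀ i j, A i j = A j i
  diag : ∀ i j, s i = s j → A i j = 0
  row : ∀ i, ∑ j, A i j = m i

theorem Fm.eq (f : Fm s m A) (hm : ∑ i, m i = 2) (v : E → ℝ) (x : E × ℝ) :
    vm v s A + psi v s m x = (∑ i, ∑ j, A i j * dd v x (s i) (s j)) / 2 := by
  have e1 : ∑ i, ∑ j, A i j * x.2 = 2 * x.2 := by
    simp only [← sum_mul, f.row, hm]
  have e2 : ∑ i, ∑ j, A i j * rho v x (s i) = ∑ i, m i * rho v x (s i) := by
    simp only [← sum_mul, f.row]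
  have e3 : ∑ i, ∑ j, A i j * rho v x (s j) = ∑ i, m i * rho v x (s i) := by
    rw [sum_comm]
    simp only [← sum_mul, fun j i => f.symm i j, f.row]
  simp only [dd, mul_sub, mul_add, sum_sub_distrib, sum_add_distrib, e1, e2, e3, vm, psi]
  ring

theorem Fm.term (f : Fm s m A) (h : Um v) (x : E × ℝ) (i j : ι) :
    0 ≤ A i j * dd v x (s i) (s j) := by
  by_cases p : s i = s j
  · simp [f.diag i j p]
  · exact mul_nonneg (f.nn i j) (h.dd_nonneg x p)

/-- the form of a matching is logarithmic -/
theorem Fm.nonneg (f : Fm s m A) (hm : ∑ i, m i = 2) (h : Um v) (x : E × ℝ) :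
    0 ≤ vm v s A + psi v s m x := by
  rw [f.eq hm]
  exact div_nonneg (sum_nonneg fun i _ => sum_nonneg fun j _ => f.term h x i j) zero_le_two

theorem psi_eq (hm : ∑ i, m i = 2) (v : E → ℝ) (x : E × ℝ) :
    psi v s m x = ∑ i, m i * ((x.2 - 2 * rho v x (s i)) / 2) := by
  have : ∀ i, m i * ((x.2 - 2 * rho v x (s i)) / 2) = m i * (x.2 / 2) - m i * rho v x (s i) :=
    fun i => by ring
  simp only [this, sum_sub_distrib, ← sum_mul, hm, psi]
  ring

/-- **T1** -/
theorem Um.lip (h : Um v) (h0 : ∀ i, 0 ≤ m i) (hm : ∑ i, m i = 2) (x y : E × ℝ) :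
    |psi v s m x - psi v s m y| ≤ ds v x y := by
  rw [psi_eq hm, psi_eq hm, ← sum_sub_distrib]
  refine (abs_sum_le_sum_abs _ _).trans ?_
  calc _ ≤ ∑ i, m i * (ds v x y / 2) := sum_le_sum fun i _ => by
        rw [← mul_sub, abs_mul, abs_of_nonneg (h0 i), ← sub_div, abs_div, abs_two]
        gcongr
        exacts [h0 i, h.bus x y _]
    _ = _ := by
        rw [← sum_mul, hm]
        ring

theorem sum_pj (hm : ∑ i, m i = 2) (v : E → ℝ) (x y : E × ℝ) :
    ∑ i, m i * pj v x y (s i) = psi v s m x - psi v s m y + ds v x y := by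
  have : ∀ i, m i * pj v x y (s i) =
      m i * (x.2 - jn v x y) - m i * rho v x (s i) + m i * rho v y (s i) := fun i => by
    unfold pj
    ring
  simp only [this, sum_add_distrib, sum_sub_distrib, ← sum_mul, hm, psi, ds]
  ring

/-- **T2** -/
theorem Fm.two (f : Fm s m A) (hm : ∑ i, m i = 2) (h : Um v) (h0 : ∀ i, 0 ≤ m i)
    (h5 : ∀ i, m i ≤ 1 / 5) (hs : Function.Injective s)
    (hA : ∀ i j, i ≠ j → m i * m j / 4 ≤ A i j) {x y : E × ℝ} {l : ℝ} (hl : l ≤ ds v x y)
    (hp : psi v s m y - psi v s m x ≤ l / 5) : l / 20 ≤ vm v s A + psi v s m x := by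
  classical
  rcases le_or_gt l 0 with l0 | l0
  · linarith [f.nonneg hm h x]
  set L := ds v x y
  have L0 : 0 < L := l0.trans_le hl
  let p : ι → ℝ := fun i => pj v x y (s i)
  have p0 : ∀ i, 0 ≤ p i ∧ p i ≤ L := fun i => h.pj_mem x y _
  have key : ∀ i j, (m i * p i) * (m j * p j) - (if i = j then L / 5 * (m i * p i) else 0) ≤
      4 * L * (A i j * dd v x (s i) (s j)) := fun i j => by
    have := p0 i
    have := p0 j
    have := h0 i
    have := h0 j
    split_ifs with e
    · subst e
      have : m i * p i ≤ L / 5 := by nlinarith [h5 i, p0 i]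
      have := mul_nonneg (h0 i) (p0 i).1
      have := f.term h x i i
      nlinarith
    · have d : p i * p j ≤ L * dd v x (s i) (s j) := by
        rcases min_le_iff.1 (h.pj_le x y (hs.ne e)) with q | q
        · nlinarith [p0 i, p0 j]
        · nlinarith [p0 i, p0 j]
      have d0 := h.dd_nonneg x (hs.ne e)
      have := mul_le_mul_of_nonneg_left d (mul_nonneg (h0 i) (h0 j))
      have := mul_le_mul_of_nonneg_right (hA i j e) (mul_nonneg L0.le d0)
      nlinarith
  have S := sum_le_sum fun i (_ : i ∈ univ) => sum_le_sum fun j (_ : j ∈ univ) => key i j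
  simp only [sum_sub_distrib, sum_ite_eq, mem_univ, if_true, ← mul_sum, ← sum_mul] at S
  have e := sum_pj (s := s) hm v x y
  have e' := f.eq hm v x
  change ∑ i, m i * p i = _ at e
  set Y := ∑ i, m i * p i
  have Y0 : 4 / 5 * L ≤ Y := by linarith
  have : L * (L / 20) ≤ L * (vm v s A + psi v s m x) := by nlinarith
  linarith [le_of_mul_le_mul_left this L0]

end weights

end Vale.Agent.P287D.Tre
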