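import Vale.Agent.P287D.Tr.Bas

/-!
# P287D, block T: existence of fractional matchings
-/

set_option linter.unusedSectionVars false

open Finset

noncomputable section

namespace Vale.Agent.P287D.Tre

variable {k : Type*} [Field k] [LinearOrder k] [IsStrictOrderedRing k]

/-- the projection to an interval -/
def clp (p q x : k) : k := min (max x p) q

theorem clp_swap {p q p' q' : k} (h : p ≤ q) (h' : p' ≤ q') :
    clp p q q' - clp p q p' = clp p' q' q - clp p' q' p := by
  simp only [clp, min_def, max_def]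
  split_ifs <;> linarith

theorem clp_mono (p q : k) {x y : k} (h : x ≤ y) : clp p q x ≤ clp p q y :=
  min_le_min (max_le_max h le_rfl) le_rfl

theorem clp_left {p q x : k} (h : p ≤ q) (hx : x ≤ p) : clp p q x = p := by
  rw [clp, max_eq_right hx, min_eq_left h]

theorem clp_right {p q x : k} (hx : q ≤ x) : clp p q x = q :=
  min_eq_right (hx.trans (le_max_left _ _))

theorem clp_sub (p q x t : k) : clp (p - t) (q - t) (x - t) = clp p q x - t := by
  rw [clp, clp, max_sub_sub_right, min_sub_sub_right]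

theorem fm_fin {n : ℕ} (M : Fin n → k) (h0 : ∀ i, 0 ≤ M i) (h : ∀ i, 2 * M i ≤ ∑ j, M j) :
    ∃ B, Fm id M B := by
  let N : ℕ → k := fun i => if q : i < n then M ⟨i, q⟩ else 0
  let σ : ℕ → k := fun i => ∑ j ∈ range i, N j
  have N0 : ∀ i, 0 ≤ N i := fun i => by
    simp only [N]
    split_ifs
    exacts [h0 _, le_rfl]
  have st : ∀ i, σ (i + 1) = σ i + N i := fun i => sum_range_succ _ _
  have NM : ∀ i : Fin n, N i = M i := fun i => dif_pos i.2
  have mo : Monotone σ := monotone_nat_of_le_succ fun i => by linarith [st i, N0 i]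
  have tot : σ n = ∑ j, M j := by
    rw [← sum_congr rfl fun i _ => NM i]
    exact (Fin.sum_univ_eq_sum_range N n).symm
  have z : σ 0 = 0 := rfl
  obtain ⟨t, ht⟩ : ∃ t, σ n = 2 * t := ⟨σ n / 2, by ring⟩
  have t0 : 0 ≤ t := by linarith [mo n.zero_le]
  let c : ℕ → ℕ → k := fun i j => clp (σ i) (σ (i + 1)) (σ (j + 1) - t) - clp (σ i) (σ (i + 1)) (σ j - t)
  have c0 : ∀ i j, 0 ≤ c i j := fun i j =>
    sub_nonneg.2 (clp_mono _ _ (sub_le_sub_right (mo j.le_succ) _))
  refine ⟨fun i j => c i j + c j i, fun i j => add_nonneg (c0 _ _) (c0 _ _), fun i j => add_comm _ _,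
    fun i j e => ?_, fun i => ?_⟩
  · obtain rfl : i = j := e
    have := h i
    have : c i i = 0 := by
      simp only [c]
      rw [clp_left (mo (Nat.le_succ i)) (by linarith [st i, NM i]),
        clp_left (mo (Nat.le_succ i)) (by linarith), sub_self]
    simp [this]
  · have a : ∑ j : Fin n, c i j = clp (σ i) (σ (i + 1)) t - σ i := by
      rw [Fin.sum_univ_eq_sum_range (c i) n,
        sum_range_sub (fun j => clp (σ i) (σ (i + 1)) (σ j - t)), ht, z,
        clp_left (x := 0 - t) (mo (Nat.le_succ i)) (by linarith [mo (Nat.zero_le i)])]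
      congr 2
      ring
    have b : ∑ j : Fin n, c j i = σ (i + 1) - clp (σ i) (σ (i + 1)) t := by
      have e : ∀ j, c j i = clp (σ i - t) (σ (i + 1) - t) (σ (j + 1)) -
          clp (σ i - t) (σ (i + 1) - t) (σ j) := fun j =>
        clp_swap (mo j.le_succ) (sub_le_sub_right (mo (Nat.le_succ i)) _)
      rw [Fin.sum_univ_eq_sum_range (fun j => c j i) n, sum_congr rfl fun j _ => e j,
        sum_range_sub (fun j => clp (σ i - t) (σ (i + 1) - t) (σ j)), z,
        clp_right (by linarith [mo (Nat.succ_le_of_lt i.2)]), ← sub_self t, clp_sub]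
      ring
    rw [sum_add_distrib, a, b, st, NM]
    ring

variable {ι D : Type*} [Fintype ι]

open Classical in
/-- the mass of a class -/
def mass (κ : ι → D) (m : ι → k) (d : D) : k := ∑ j with κ j = d, m j

/-- weights whose classes have at most half of the mass have a matching of different classes -/
theorem exists_fm (κ : ι → D) (m : ι → k) (h0 : ∀ i, 0 ≤ m i)
    (h : ∀ i, 2 * mass κ m (κ i) ≤ ∑ j, m j) : ∃ A, Fm κ m A := by
  classical
  let T : Finset D := univ.image κ
  let τ : ι → T := fun i => ⟨κ i, mem_image_of_mem _ (mem_univ i)⟩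
  let e := T.equivFin
  let g : ι → Fin T.card := fun i => e (τ i)
  have hg : ∀ i j, g i = g j ↔ κ i = κ j := fun i j => by simp [g, τ]
  let M : Fin T.card → k := fun d => ∑ j with g j = d, m j
  have tot : ∑ d, M d = ∑ j, m j := sum_fiberwise _ _ _
  have M0 : ∀ d, 0 ≤ M d := fun d => sum_nonneg fun j _ => h0 j
  obtain ⟨B, f⟩ := fm_fin M M0 fun d => by
    obtain ⟨i, -, hi⟩ := mem_image.1 (e.symm d).2
    have : g i = d := by
      rw [← e.apply_symm_apply d]
      exact congrArg e (Subtype.ext hi)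
    rw [tot, ← this]
    simpa only [M, hg, mass] using h i
  have le : ∀ i, m i ≤ M (g i) := fun i =>
    single_le_sum (f := m) (fun j _ => h0 j) (by simp)
  refine ⟨fun i j => m i / M (g i) * (m j / M (g j)) * B (g i) (g j), fun i j =>
    mul_nonneg (mul_nonneg (div_nonneg (h0 _) (M0 _)) (div_nonneg (h0 _) (M0 _))) (f.nn _ _),
    fun i j => by rw [f.symm, mul_comm (m i / _)],
    fun i j q => by rw [f.diag _ _ ((hg i j).2 q), mul_zero], fun i => ?_⟩
  have r : ∑ j, m j / M (g j) * B (g i) (g j) = M (g i) := by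
    rw [← f.row (g i), ← sum_fiberwise univ g]
    refine sum_congr rfl fun d _ => ?_
    rw [sum_congr rfl (g := fun j => m j * (B (g i) d / M d)) fun j hj => by
      rw [(mem_filter.1 hj).2]; ring, ← sum_mul]
    change M d * _ = _
    rcases (M0 d).eq_or_lt with q | q
    · have : B (g i) d ≤ M d := by
        rw [← f.row d, f.symm]
        exact single_le_sum (f := B d) (fun j _ => f.nn _ j) (mem_univ _)
      rw [← q, zero_mul]
      exact le_antisymm (f.nn _ _) (this.trans q.ge)
    · field_simp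
  simp only [mul_assoc, ← mul_sum, r]
  rcases (M0 (g i)).eq_or_lt with q | q
  · rw [← q, mul_zero]
    exact le_antisymm (h0 i) ((le i).trans q.ge)
  · field_simp

theorem mass_inj {κ : ι → D} (hκ : Function.Injective κ) (m : ι → k) (i : ι) :
    mass κ m (κ i) = m i := by
  classical
  rw [mass, sum_eq_single_of_mem i (by simp) fun j hj n => (n (hκ (mem_filter.1 hj).2)).elim]

theorem exists_fm_inj {κ : ι → D} (hκ : Function.Injective κ) (m : ι → k) (h0 : ∀ i, 0 ≤ m i)
    (h : ∀ i, 2 * m i ≤ ∑ j, m j) : ∃ A, Fm κ m A :=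
  exists_fm κ m h0 fun i => by rw [mass_inj hκ]; exact h i

/-- the uniform matching -/
theorem exists_unif {κ : ι → D} (hκ : Function.Injective κ) (m : ι → k) (h0 : ∀ i, 0 ≤ m i)
    (hm : ∑ i, m i = 2) (h : ∀ i, m i ≤ 2 / 3) :
    ∃ A, Fm κ m A ∧ ∀ i j, i ≠ j → m i * m j / 4 ≤ A i j := by
  classical
  obtain ⟨B, f⟩ := exists_fm_inj hκ (fun i => m i / 2 + m i ^ 2 / 4)
    (fun i => by have := h0 i; positivity) fun i => by
      rw [sum_add_distrib, ← sum_div, hm]
      have : 0 ≤ ∑ j, m j ^ 2 / 4 := sum_nonneg fun j _ => by positivity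
      nlinarith [h0 i, h i]
  refine ⟨fun i j => B i j + if i = j then 0 else m i * m j / 4, ⟨fun i j => ?_, fun i j => ?_,
    fun i j e => ?_, fun i => ?_⟩, fun i j n => ?_⟩
  · have := h0 i
    have := h0 j
    have := f.nn i j
    positivity
  · simp only [f.symm i j, eq_comm (a := i), mul_comm (m i)]
  · simp only [f.diag i j e, if_pos (hκ e), add_zero]
  · have : ∀ j, (if i = j then 0 else m i * m j / 4) =
        m i / 4 * m j - if i = j then m i ^ 2 / 4 else 0 := fun j => by
      split_ifs with e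
      · subst e
        ring
      · ring
    simp only [sum_add_distrib, f.row, this, sum_sub_distrib, ← mul_sum, hm, sum_ite_eq, mem_univ,
      if_true]
    ring
  · simp only [if_neg n]
    linarith [f.nn i j]

theorem Fm.cast {κ : ι → D} {m : ι → ℚ} {A : ι → ι → ℚ} (f : Fm κ m A) :
    Fm κ (fun i => (m i : ℝ)) fun i j => (A i j : ℝ) :=
  ⟨fun i j => by exact_mod_cast f.nn i j, fun i j => by rw [f.symm],
    fun i j e => by rw [f.diag i j e, Rat.cast_zero], fun i => by rw [← f.row, Rat.cast_sum]⟩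

theorem Fm.mono {D' : Type*} {κ : ι → D} {s : ι → D'} {m : ι → k} {A : ι → ι → k} (f : Fm κ m A)
    (h : ∀ i j, s i = s j → κ i = κ j) : Fm s m A :=
  ⟨f.nn, f.symm, fun i j e => f.diag i j (h i j e), f.row⟩

end Vale.Agent.P287D.Tre
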